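import Mathlib

/-! Definitions for P074: quadratic optimal transport maps and admissible stability exponents. -/

namespace Vale.Agent.P074

open MeasureTheory
open scoped ENNReal NNReal

/-- The uniform probability measure `|K|⁻¹ 1_K dx`. -/
noncomputable def unif {d : ℕ} (K : Set (EuclideanSpace ℝ (Fin d))) :
    Measure (EuclideanSpace ℝ (Fin d)) :=
  (volume K)⁻¹ • volume.restrict K

/-- The quadratic transport cost `∫ |x - T x|² dρ(x)` of a map. -/
noncomputable def cost {d : ℕ} (ρ : Measure (EuclideanSpace ℝ (Fin d)))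
    (T : EuclideanSpace ℝ (Fin d) → EuclideanSpace ℝ (Fin d)) : ℝ≥0∞ :=
  ∫⁻ x, enorm (x - T x) ^ 2 ∂ρ

/-- `T` is a quadratic optimal transport map from `ρ` to `μ`: a Borel map pushing `ρ` to `μ`
that minimizes the quadratic cost among all Borel maps pushing `ρ` to `μ`. -/
def IsOptimalMap {d : ℕ} (ρ μ : Measure (EuclideanSpace ℝ (Fin d)))
    (T : EuclideanSpace ℝ (Fin d) → EuclideanSpace ℝ (Fin d)) : Prop :=
  Measurable T ∧ ρ.map T = μ ∧
    ∀ S : EuclideanSpace ℝ (Fin d) → EuclideanSpace ℝ (Fin d),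
      Measurable S → ρ.map S = μ → cost ρ T ≤ cost ρ S

/-- The quadratic Wasserstein distance: the infimum over couplings `π` of `μ, ν` of
`(∫ |y - z|² dπ)^(1/2)`. -/
noncomputable def W2 {d : ℕ} (μ ν : Measure (EuclideanSpace ℝ (Fin d))) : ℝ≥0∞ :=
  ⨅ (π : Measure (EuclideanSpace ℝ (Fin d) × EuclideanSpace ℝ (Fin d)))
    (_ : π.map Prod.fst = μ ∧ π.map Prod.snd = ν),
    (∫⁻ p, enorm (p.1 - p.2) ^ 2 ∂π) ^ (1 / 2 : ℝ)

/-- `α ∈ (0,1]` is admissible in dimension `d`: for every compact convex `K` with nonempty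
interior and every nonempty compact `Y` there is a finite `C` with
`‖T_μ - T_ν‖_{L²(ρ)} ≤ C W₂(μ,ν)^α` for all Borel probability measures `μ, ν` supported in `Y`. -/
def Admissible (d : ℕ) (α : ℝ) : Prop :=
  0 < α ∧ α ≤ 1 ∧
    ∀ K : Set (EuclideanSpace ℝ (Fin d)), IsCompact K → Convex ℝ K → (interior K).Nonempty →
      ∀ Y : Set (EuclideanSpace ℝ (Fin d)), IsCompact Y → Y.Nonempty →
        ∃ C : ℝ≥0, ∀ μ ν : Measure (EuclideanSpace ℝ (Fin d)),
          IsProbabilityMeasure μ → IsProbabilityMeasure ν → μ (compl Y) = 0 → ν (compl Y) = 0 →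
          ∀ T S : EuclideanSpace ℝ (Fin d) → EuclideanSpace ℝ (Fin d),
            IsOptimalMap (unif K) μ T → IsOptimalMap (unif K) ν S →
            eLpNorm (fun x => T x - S x) 2 (unif K) ≤ C * W2 μ ν ^ α

end Vale.Agent.P074
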